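import Vale.Agent.P181.TL.Defs

set_option autoImplicit false

/-!
# P181, TL: (T8) from `CoreW`, the near linear theorem and few boxes below row two
-/

namespace Vale.Agent.P181.TL.H976

open Vale.Agent.P181.H280 (plethMult)
open Vale.Agent.P181.SZ Vale.Agent.P181.TL

/-- The near linear theorem, as `PLX.poly_result` gives it. -/
def NearLin : Prop := ∃ (C : ℝ) (c : ℕ), ∀ a b : ℕ, C * a * (1 + Real.log a) ^ c ≤ b →
  ∀ (n : ℕ) (lam : Fin n → ℕ), plethMult a b n lam ≤ plethMult b a n lam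

/-- Few boxes below row two. -/
def FewTwo : Prop := ∀ (a b k : ℕ) (lam : Fin (k + 2) → ℕ), 2 ≤ a → dn2 lam + a ≤ b + 1 →
  plethMult a b (k + 2) lam ≤ plethMult b a (k + 2) lam

/-- Polylogarithms are at most linear. -/
theorem exists_polylog_le (K : ℝ) (c : ℕ) :
    ∃ A : ℕ, ∀ a : ℕ, A ≤ a → K * (1 + Real.log a) ^ c ≤ a := by
  have h1 := Real.isLittleO_pow_log_id_atTop (n := c)
  have hK : 0 < (1 : ℝ) / (|K| * 2 ^ c + 1) := by positivity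
  have h2 := h1.def hK
  have h3 := tendsto_natCast_atTop_atTop (R := ℝ) |>.eventually h2
  obtain ⟨A, hA⟩ := Filter.eventually_atTop.1 h3
  refine ⟨max A 3, fun a ha => ?_⟩
  have ha1 : A ≤ a := (le_max_left _ _).trans ha
  have ha3 : 3 ≤ a := (le_max_right _ _).trans ha
  have ha3' : (3 : ℝ) ≤ a := by exact_mod_cast ha3
  have h4 := hA a ha1
  have hlog : 1 ≤ Real.log a := by
    rw [Real.le_log_iff_exp_le (by linarith)]
    exact (Real.exp_one_lt_d9.le.trans (by norm_num)).trans ha3'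
  have h5 : (1 + Real.log a) ^ c ≤ 2 ^ c * Real.log a ^ c := by
    rw [← mul_pow]
    exact pow_le_pow_left₀ (by linarith) (by linarith) c
  have h6 : Real.log a ^ c ≤ 1 / (|K| * 2 ^ c + 1) * a := by
    have : ‖Real.log a ^ c‖ ≤ 1 / (|K| * 2 ^ c + 1) * ‖(a : ℝ)‖ := h4
    rw [Real.norm_of_nonneg (by positivity), Real.norm_of_nonneg (by positivity)] at this
    exact this
  have h7 : 0 ≤ (1 + Real.log a) ^ c := by positivity
  calc K * (1 + Real.log a) ^ c ≤ |K| * (1 + Real.log a) ^ c :=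
        mul_le_mul_of_nonneg_right (le_abs_self K) h7
    _ ≤ |K| * (2 ^ c * Real.log a ^ c) := mul_le_mul_of_nonneg_left h5 (abs_nonneg K)
    _ ≤ |K| * (2 ^ c * (1 / (|K| * 2 ^ c + 1) * a)) := by gcongr
    _ = |K| * 2 ^ c / (|K| * 2 ^ c + 1) * a := by ring
    _ ≤ 1 * a := by
        apply mul_le_mul_of_nonneg_right _ (by positivity)
        rw [div_le_one (by positivity)]
        linarith
    _ = a := one_mul _

theorem sum_tl {k : ℕ} (lam : Fin (k + 2) → ℕ) : ∑ i, tl lam i = lam 1 + dn2 lam := by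
  rw [Fin.sum_univ_succ]
  rfl

/-- At most `a ^ 2 / 16` boxes below row two. -/
theorem case_few (hW : CoreW) {θ : ℝ} (hθ : 0 < θ) {m₀ : ℕ} (hm48 : 48 ≤ m₀)
    (hmθ : 144 / θ ≤ m₀) {a b k : ℕ} {lam : Fin (k + 2) → ℕ} (hlam : Antitone lam)
    (hsum : ∑ i, lam i = a * b) (hθa : θ * (a : ℝ) ^ 2 ≤ lam 1) (h400 : 400 * dn2 lam ≤ lam 1)
    (h4 : 4 * ∑ i, tl lam i ≤ a * b) (ha240 : 240 ≤ a) (haθ : 864 / θ ≤ a)
    (h100 : 100 * a ≤ b) (hb3 : (10 ^ 6 * (36 * m₀) ^ 2 + 1) * a ≤ b)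
    (hfew : b + 1 < dn2 lam + a) (hcase : 16 * dn2 lam ≤ a ^ 2) :
    plethMult a b (k + 2) lam ≤ plethMult b a (k + 2) lam := by
  have ha0 : 0 < a := by omega
  have haR : (0 : ℝ) < a := by exact_mod_cast ha0
  have hbt : b ≤ dn2 lam + a := by omega
  have hq : 16 * dn2 lam / a ^ 2 ≤ 1 := by
    have h1 : 0 < a ^ 2 := by positivity
    have : 16 * dn2 lam / a ^ 2 < 2 := by
      rw [Nat.div_lt_iff_lt_mul h1]
      omega
    omega
  obtain ⟨q, hqd⟩ : ∃ q, q = 5 + 16 * dn2 lam / a ^ 2 := ⟨_, rfl⟩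
  have hq6 : q ≤ 6 := by omega
  have hq2 : q ^ 2 ≤ 36 := by nlinarith
  refine hW a b k q m₀ lam hlam hsum ha0 hqd (by omega) ?_ ?_ (by omega) h400 h4 h100 hbt ?_
  · have h1 : (144 : ℝ) ≤ m₀ * θ := by
      rwa [div_le_iff₀ hθ] at hmθ
    have h2 : (144 : ℝ) * (a : ℝ) ^ 2 ≤ m₀ * lam 1 := by
      calc (144 : ℝ) * (a : ℝ) ^ 2 ≤ m₀ * θ * (a : ℝ) ^ 2 := by gcongr
        _ = m₀ * (θ * (a : ℝ) ^ 2) := by ring
        _ ≤ m₀ * lam 1 := by gcongr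
    have h3 : 144 * a ^ 2 ≤ m₀ * lam 1 := by exact_mod_cast h2
    calc 4 * q ^ 2 * a ^ 2 ≤ 4 * 36 * a ^ 2 := by gcongr
      _ = 144 * a ^ 2 := by ring
      _ ≤ _ := h3
  · have h1 : (864 : ℝ) ≤ a * θ := by rwa [div_le_iff₀ hθ] at haθ
    have h2 : (864 : ℝ) * a ≤ lam 1 := by
      calc (864 : ℝ) * a ≤ a * θ * a := by gcongr
        _ = θ * (a : ℝ) ^ 2 := by ring
        _ ≤ lam 1 := hθa
    have h3 : 864 * a ≤ lam 1 := by exact_mod_cast h2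
    calc 24 * q ^ 2 * a ≤ 24 * 36 * a := by gcongr
      _ = 864 * a := by ring
      _ ≤ _ := h3
  · have h2 : 10 ^ 6 * (m₀ * q ^ 2) ^ 2 * a ≤ 10 ^ 6 * (36 * m₀) ^ 2 * a := by
      have : m₀ * q ^ 2 ≤ 36 * m₀ := by
        rw [mul_comm 36]
        exact Nat.mul_le_mul_left _ hq2
      gcongr
    have h3 : (10 ^ 6 * (36 * m₀) ^ 2 + 1) * a = 10 ^ 6 * (36 * m₀) ^ 2 * a + a := by ring
    omega

/-- More than `a ^ 2 / 16` boxes below row two. -/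
theorem case_many (hW : CoreW) {a b k q : ℕ} {lam : Fin (k + 2) → ℕ} (hlam : Antitone lam)
    (hsum : ∑ i, lam i = a * b) (h400 : 400 * dn2 lam ≤ lam 1)
    (h4 : 4 * ∑ i, tl lam i ≤ a * b) (ha0 : 0 < a) (h100 : 100 * a ≤ b)
    (hbt : b ≤ dn2 lam + a) (hcase : a ^ 2 < 16 * dn2 lam)
    (hqd : q = 5 + 16 * dn2 lam / a ^ 2) (hq8 : 16 * 64 * 10 ^ 6 * q ^ 8 ≤ a) :
    plethMult a b (k + 2) lam ≤ plethMult b a (k + 2) lam := by
  have hq5 : 5 ≤ q := by rw [hqd]; exact Nat.le_add_right _ _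
  have hq2 : q ^ 2 ≤ q ^ 8 := Nat.pow_le_pow_right (by omega) (by norm_num)
  have hq1 : q ≤ q ^ 8 := by
    calc q = q ^ 1 := (pow_one q).symm
      _ ≤ q ^ 8 := Nat.pow_le_pow_right (by omega) (by norm_num)
  have hq1' : q ≤ q ^ 2 := by nlinarith
  have hl25 : 25 * a ^ 2 ≤ lam 1 := by omega
  refine hW a b k q (8 * q ^ 2) lam hlam hsum ha0 hqd (by omega) ?_ ?_ (by omega) h400 h4 h100
    hbt ?_
  · calc 4 * q ^ 2 * a ^ 2 = 4 * (q ^ 2 * a ^ 2) := by ring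
      _ ≤ 200 * (q ^ 2 * a ^ 2) := Nat.mul_le_mul_right _ (by norm_num)
      _ = 8 * q ^ 2 * (25 * a ^ 2) := by ring
      _ ≤ 8 * q ^ 2 * lam 1 := Nat.mul_le_mul_left _ hl25
  · have h1 : q ^ 2 ≤ a := by omega
    calc 24 * q ^ 2 * a ≤ 24 * a * a := Nat.mul_le_mul_right _ (Nat.mul_le_mul_left _ h1)
      _ = 24 * a ^ 2 := by ring
      _ ≤ 25 * a ^ 2 := Nat.mul_le_mul_right _ (by norm_num)
      _ ≤ lam 1 := hl25
  · have h1 : 16 * (10 ^ 6 * (8 * q ^ 2 * q ^ 2) ^ 2 * a) ≤ a ^ 2 := by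
      calc 16 * (10 ^ 6 * (8 * q ^ 2 * q ^ 2) ^ 2 * a)
          = (16 * 64 * 10 ^ 6 * q ^ 8) * a := by ring
        _ ≤ a * a := Nat.mul_le_mul_right _ hq8
        _ = a ^ 2 := by ring
    omega

/-- The bound for `q`. -/
theorem q_bound {C₁ L : ℝ} (hL1 : 1 ≤ L) {a b t q : ℕ} (ha0 : 0 < a)
    (ht : 1600 * t ≤ a * b) (hbL : (b : ℝ) < C₁ * a * L) (hqd : q = 5 + 16 * t / a ^ 2) :
    (q : ℝ) ≤ (5 + C₁ / 100) * L := by
  have haR : (0 : ℝ) < a := by exact_mod_cast ha0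
  have htR : (1600 : ℝ) * t ≤ a * b := by exact_mod_cast ht
  have h1 : ((16 * t / a ^ 2 : ℕ) : ℝ) ≤ (16 * t : ℝ) / (a : ℝ) ^ 2 := by
    have := @Nat.cast_div_le ℝ _ _ _ (16 * t) (a ^ 2)
    push_cast at this
    exact this
  have h2 : (16 * t : ℝ) / (a : ℝ) ^ 2 ≤ C₁ * L / 100 := by
    rw [div_le_iff₀ (by positivity)]
    have : (a : ℝ) * b ≤ a * (C₁ * a * L) := by gcongr
    nlinarith
  have h3 : (q : ℝ) = 5 + ((16 * t / a ^ 2 : ℕ) : ℝ) := by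
    rw [hqd]; push_cast; rfl
  rw [h3]
  nlinarith

/-- **(T8)**. -/
theorem twoLong (hW : CoreW) (hP : NearLin) (hF : FewTwo) : TwoLong := by
  intro θ hθ
  obtain ⟨C₀, c, hC₀⟩ := hP
  obtain ⟨C₁, hC₁⟩ : ∃ x : ℝ, x = max C₀ 1 := ⟨_, rfl⟩
  have hC1 : 1 ≤ C₁ := hC₁ ▸ le_max_right _ _
  have hP' : ∀ a b : ℕ, C₁ * a * (1 + Real.log a) ^ c ≤ b →
      ∀ (n : ℕ) (lam : Fin n → ℕ), plethMult a b n lam ≤ plethMult b a n lam := by
    intro a b hab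
    refine hC₀ a b (le_trans ?_ hab)
    have h0 : 0 ≤ (1 + Real.log (a : ℝ)) ^ c :=
      pow_nonneg (by linarith [Real.log_natCast_nonneg a]) c
    have h1 : C₀ ≤ C₁ := hC₁ ▸ le_max_left _ _
    gcongr
  obtain ⟨A₂, hA₂⟩ := exists_polylog_le (16 * 64 * 10 ^ 6 * (5 + C₁ / 100) ^ 8) (8 * c)
  obtain ⟨m₀, hm48, hmθ⟩ : ∃ m₀ : ℕ, 48 ≤ m₀ ∧ 144 / θ ≤ m₀ :=
    ⟨max 48 ⌈144 / θ⌉₊, le_max_left _ _,
      (Nat.le_ceil _).trans (by exact_mod_cast le_max_right 48 ⌈144 / θ⌉₊)⟩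
  obtain ⟨A₁, h240, hAA, hAθ⟩ : ∃ A₁ : ℕ, 240 ≤ A₁ ∧ A₂ ≤ A₁ ∧ 864 / θ ≤ A₁ :=
    ⟨max (max 240 A₂) ⌈864 / θ⌉₊, (le_max_left _ _).trans (le_max_left _ _),
      (le_max_right _ _).trans (le_max_left _ _),
      (Nat.le_ceil _).trans (by exact_mod_cast le_max_right (max 240 A₂) ⌈864 / θ⌉₊)⟩
  refine ⟨max (C₁ * (1 + Real.log A₁) ^ c) (max 100 (10 ^ 6 * (36 * m₀) ^ 2 + 1)),
    lt_of_lt_of_le (by norm_num : (0 : ℝ) < 100) ((le_max_left _ _).trans (le_max_right _ _)),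
    ?_⟩
  intro a b k lam hlam hsum hab hθa h400 h4
  have hb1 : C₁ * (1 + Real.log A₁) ^ c * a ≤ b :=
    (mul_le_mul_of_nonneg_right (le_max_left _ _) (by positivity)).trans hab
  have hb2 : (100 : ℝ) * a ≤ b :=
    (mul_le_mul_of_nonneg_right ((le_max_left _ _).trans (le_max_right _ _))
      (by positivity)).trans hab
  have hb3 : (10 ^ 6 * (36 * m₀) ^ 2 + 1 : ℝ) * a ≤ b :=
    (mul_le_mul_of_nonneg_right ((le_max_right _ _).trans (le_max_right _ _))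
      (by positivity)).trans hab
  rcases lt_or_ge a A₁ with haA | haA
  · -- small `a`
    apply hP' a b _ _ lam
    refine le_trans ?_ hb1
    have : (1 + Real.log (a : ℝ)) ^ c ≤ (1 + Real.log (A₁ : ℝ)) ^ c := by
      rcases Nat.eq_zero_or_pos a with h0 | h0
      · subst h0
        simp only [Nat.cast_zero, Real.log_zero, add_zero, one_pow]
        exact one_le_pow₀ (by linarith [Real.log_natCast_nonneg A₁])
      · apply pow_le_pow_left₀ (by linarith [Real.log_natCast_nonneg a])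
        have : Real.log (a : ℝ) ≤ Real.log (A₁ : ℝ) :=
          Real.log_le_log (by exact_mod_cast h0) (by exact_mod_cast haA.le)
        linarith
    calc C₁ * a * (1 + Real.log a) ^ c ≤ C₁ * a * (1 + Real.log A₁) ^ c := by gcongr
      _ = C₁ * (1 + Real.log A₁) ^ c * a := by ring
  by_cases hbL : C₁ * a * (1 + Real.log a) ^ c ≤ b
  · exact hP' a b hbL _ lam
  rw [not_le] at hbL
  by_cases hfew : dn2 lam + a ≤ b + 1
  · exact hF a b k lam (by omega) hfew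
  rw [not_le] at hfew
  have ha0 : 0 < a := by omega
  have h100 : 100 * a ≤ b := by exact_mod_cast hb2
  by_cases hcase : 16 * dn2 lam ≤ a ^ 2
  · exact case_few hW hθ hm48 hmθ hlam hsum hθa h400 h4 (h240.trans haA)
      (hAθ.trans (by exact_mod_cast haA)) h100 (by exact_mod_cast hb3) hfew hcase
  · rw [not_le] at hcase
    have htl := sum_tl lam
    have ht : 1600 * dn2 lam ≤ a * b := by omega
    have hL1 : 1 ≤ (1 + Real.log (a : ℝ)) ^ c :=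
      one_le_pow₀ (by linarith [Real.log_natCast_nonneg a])
    have hqR := q_bound hL1 ha0 ht hbL rfl
    refine case_many hW hlam hsum h400 h4 ha0 h100 (by omega) hcase rfl ?_
    have h1 := hA₂ a (hAA.trans haA)
    have h2 : (((5 + 16 * dn2 lam / a ^ 2 : ℕ) : ℝ)) ^ 8 ≤
        ((5 + C₁ / 100) * (1 + Real.log a) ^ c) ^ 8 := by gcongr
    have h3 : (16 * 64 * 10 ^ 6 : ℝ) * ((5 + 16 * dn2 lam / a ^ 2 : ℕ) : ℝ) ^ 8 ≤ a := by
      calc (16 * 64 * 10 ^ 6 : ℝ) * ((5 + 16 * dn2 lam / a ^ 2 : ℕ) : ℝ) ^ 8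
          ≤ 16 * 64 * 10 ^ 6 * ((5 + C₁ / 100) * (1 + Real.log a) ^ c) ^ 8 := by gcongr
        _ = 16 * 64 * 10 ^ 6 * (5 + C₁ / 100) ^ 8 * (1 + Real.log a) ^ (8 * c) := by
            rw [mul_pow, ← pow_mul, mul_comm c 8]; ring
        _ ≤ a := h1
    exact_mod_cast h3

end Vale.Agent.P181.TL.H976
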