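import Vale.Agent.P181.TL.DefsE
import Vale.Agent.P181.TL.H976.Two

set_option autoImplicit false

/-!
# P181, TL: (T8E) from `CoreE`, the near linear theorem and few boxes below row two
-/

namespace Vale.Agent.P181.TL.H976

open Vale.Agent.P181.H280 (plethMult)
open Vale.Agent.P181.SZ Vale.Agent.P181.TL

/-- `CoreE` with simpler hypotheses. -/
theorem drive (hE : CoreE) {a b k q m r : ℕ} {lam : Fin (k + 2) → ℕ}
    (hsum : ∑ i, lam i = a * b) (ha : 5 ≤ a) (hqd : q = 5 + 16 * dn2 lam / a ^ 2)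
    (hm8 : 8 * q ≤ m) (hmr : r * q ^ 2 ≤ m) (hr : 2 ≤ r)
    (hlam1 : r * (9 * dn2 lam) + 2 * a ^ 2 ≤ r * lam 1)
    (hlam0 : lam 1 + 60 * dn2 lam + 17 * a ^ 2 ≤ lam 0) (hqa : 6 * q ^ 2 * r ≤ a)
    (h40 : 40 * q ≤ a) (hbt : b ≤ dn2 lam + a)
    (hgrow : 10 ^ 6 * (m * q ^ 2) ^ 2 * a ≤ dn2 lam) :
    plethMult a b (k + 2) lam ≤ plethMult b a (k + 2) lam := by
  have hX : r * (q ^ 2 * a * (a / m)) ≤ a ^ 2 := by
    calc r * (q ^ 2 * a * (a / m)) = r * q ^ 2 * (a / m) * a := by ring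
      _ ≤ m * (a / m) * a :=
        Nat.mul_le_mul_right _ (Nat.mul_le_mul_right _ hmr)
      _ ≤ a * a := Nat.mul_le_mul_right _ (Nat.mul_div_le a m)
      _ = a ^ 2 := by ring
  have hY : r * (6 * q ^ 2 * a) ≤ a ^ 2 := by
    calc r * (6 * q ^ 2 * a) = 6 * q ^ 2 * r * a := by ring
      _ ≤ a * a := Nat.mul_le_mul_right _ hqa
      _ = a ^ 2 := by ring
  have hXY : 6 * q ^ 2 * a + q ^ 2 * a * (a / m) ≤ a ^ 2 := by
    have h1 : 2 * (6 * q ^ 2 * a + q ^ 2 * a * (a / m)) ≤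
        r * (6 * q ^ 2 * a + q ^ 2 * a * (a / m)) := Nat.mul_le_mul_right _ hr
    rw [mul_add r] at h1
    omega
  have hq3 : 3 * q * a ^ 2 ≤ 15 * a ^ 2 + 48 * dn2 lam := by
    have h1 : 16 * dn2 lam / a ^ 2 * a ^ 2 ≤ 16 * dn2 lam := Nat.div_mul_le_self _ _
    have h2 : 3 * q * a ^ 2 = 15 * a ^ 2 + 3 * (16 * dn2 lam / a ^ 2 * a ^ 2) := by
      rw [hqd]; ring
    omega
  have h5 : 5 * a ≤ a ^ 2 := by
    rw [pow_two]
    exact Nat.mul_le_mul_right _ ha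
  refine hE a b k q m lam hsum (by omega) hqd hm8 h40 ?_ (by omega) hbt hgrow
  have h1 : r * (9 * dn2 lam + 6 * q ^ 2 * a + q ^ 2 * a * (a / m)) ≤ r * lam 1 := by
    rw [mul_add, mul_add]
    omega
  exact Nat.le_of_mul_le_mul_left h1 (by omega)

/-- The bound for `q`. -/
theorem q_boundE {C₁ L : ℝ} (hC1 : 1 ≤ C₁) (hL1 : 1 ≤ L) {a b t q : ℕ} (ha0 : 0 < a)
    (ht : 60 * t ≤ a * b) (hbL : (b : ℝ) < C₁ * a * L) (hqd : q = 5 + 16 * t / a ^ 2) :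
    (q : ℝ) ≤ (5 + C₁) * L := by
  have haR : (0 : ℝ) < a := by exact_mod_cast ha0
  have htR : (60 : ℝ) * t ≤ a * b := by exact_mod_cast ht
  have h1 : ((16 * t / a ^ 2 : ℕ) : ℝ) ≤ (16 * t : ℝ) / (a : ℝ) ^ 2 := by
    have := @Nat.cast_div_le ℝ _ _ _ (16 * t) (a ^ 2)
    push_cast at this
    exact this
  have h2 : (16 * t : ℝ) / (a : ℝ) ^ 2 ≤ C₁ * L := by
    rw [div_le_iff₀ (by positivity)]
    have : (a : ℝ) * b ≤ a * (C₁ * a * L) := by gcongr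
    have h3 : 0 ≤ C₁ * L * (a : ℝ) ^ 2 := by positivity
    nlinarith
  have h3 : (q : ℝ) = 5 + ((16 * t / a ^ 2 : ℕ) : ℝ) := by
    rw [hqd]; push_cast; rfl
  rw [h3]
  nlinarith

/-- **(T8E)**. -/
theorem twoLongE (hE : CoreE) (hP : NearLin) (hF : FewTwo) : TwoLongE := by
  intro θ hθ
  obtain ⟨C₀, c, hC₀⟩ := hP
  obtain ⟨C₁, hC₁⟩ : ∃ x : ℝ, x = max C₀ 1 := ⟨_, rfl⟩
  have hC1 : 1 ≤ C₁ := hC₁ ▸ le_max_right _ _
  have hP' : ∀ a b : ℕ, C₁ * a * (1 + Real.log a) ^ c ≤ b →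
      ∀ (n : ℕ) (lam : Fin n → ℕ), plethMult a b n lam ≤ plethMult b a n lam := by
    intro a b hab
    refine hC₀ a b (le_trans ?_ hab)
    have h0 : 0 ≤ (1 + Real.log (a : ℝ)) ^ c :=
      pow_nonneg (by linarith [Real.log_natCast_nonneg a]) c
    have h1 : C₀ ≤ C₁ := hC₁ ▸ le_max_left _ _
    gcongr
  obtain ⟨r, hr2, hrθ⟩ : ∃ r : ℕ, 2 ≤ r ∧ 2 ≤ r * θ := by
    refine ⟨max 2 ⌈2 / θ⌉₊, le_max_left _ _, ?_⟩
    have h1 : 2 / θ ≤ (max 2 ⌈2 / θ⌉₊ : ℕ) :=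
      (Nat.le_ceil _).trans (by exact_mod_cast le_max_right 2 ⌈2 / θ⌉₊)
    rwa [div_le_iff₀ hθ] at h1
  obtain ⟨A₂, hA₂⟩ := exists_polylog_le (16 * 10 ^ 6 * r ^ 2 * (5 + C₁) ^ 8) (8 * c)
  obtain ⟨A₁, h216, hAA⟩ : ∃ A₁ : ℕ, 216 * r ≤ A₁ ∧ A₂ ≤ A₁ :=
    ⟨max (216 * r) A₂, le_max_left _ _, le_max_right _ _⟩
  refine ⟨max (C₁ * (1 + Real.log A₁) ^ c) (10 ^ 6 * (1296 * r) ^ 2 + 1),
    lt_of_lt_of_le (by positivity : (0 : ℝ) < 10 ^ 6 * (1296 * r) ^ 2 + 1) (le_max_right _ _), ?_⟩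
  intro a b k lam hlam hsum hab hθa hl0
  have hb1 : C₁ * (1 + Real.log A₁) ^ c * a ≤ b :=
    (mul_le_mul_of_nonneg_right (le_max_left _ _) (by positivity)).trans hab
  have hb3 : (10 ^ 6 * (1296 * r) ^ 2 + 1 : ℝ) * a ≤ b :=
    (mul_le_mul_of_nonneg_right (le_max_right _ _) (by positivity)).trans hab
  rcases lt_or_ge a A₁ with haA | haA
  · -- small `a`
    apply hP' a b _ _ lam
    refine le_trans ?_ hb1
    have : (1 + Real.log (a : ℝ)) ^ c ≤ (1 + Real.log (A₁ : ℝ)) ^ c := by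
      rcases Nat.eq_zero_or_pos a with h0 | h0
      · subst h0
        simp only [Nat.cast_zero, Real.log_zero, add_zero, one_pow]
        exact one_le_pow₀ (by linarith [Real.log_natCast_nonneg A₁])
      · apply pow_le_pow_left₀ (by linarith [Real.log_natCast_nonneg a])
        have : Real.log (a : ℝ) ≤ Real.log (A₁ : ℝ) :=
          Real.log_le_log (by exact_mod_cast h0) (by exact_mod_cast haA.le)
        linarith
    calc C₁ * a * (1 + Real.log a) ^ c ≤ C₁ * a * (1 + Real.log A₁) ^ c := by gcongr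
      _ = C₁ * (1 + Real.log A₁) ^ c * a := by ring
  by_cases hbL : C₁ * a * (1 + Real.log a) ^ c ≤ b
  · exact hP' a b hbL _ lam
  rw [not_le] at hbL
  by_cases hfew : dn2 lam + a ≤ b + 1
  · exact hF a b k lam (by omega) hfew
  rw [not_le] at hfew
  have ha0 : 0 < a := by omega
  have hb3N : (10 ^ 6 * (1296 * r) ^ 2 + 1) * a ≤ b := by exact_mod_cast hb3
  have hl1 : r * (9 * dn2 lam) + 2 * a ^ 2 ≤ r * lam 1 := by
    have h1 : (r : ℝ) * (9 * dn2 lam) + 2 * (a : ℝ) ^ 2 ≤ r * lam 1 := by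
      calc (r : ℝ) * (9 * dn2 lam) + 2 * (a : ℝ) ^ 2
          ≤ (r : ℝ) * (9 * dn2 lam) + r * θ * (a : ℝ) ^ 2 := by gcongr
        _ = r * (9 * (dn2 lam : ℝ) + θ * (a : ℝ) ^ 2) := by ring
        _ ≤ r * lam 1 := by gcongr
    exact_mod_cast h1
  by_cases hcase : 16 * dn2 lam ≤ a ^ 2
  · have hq : 16 * dn2 lam / a ^ 2 ≤ 1 := by
      have h1 : 0 < a ^ 2 := by positivity
      have : 16 * dn2 lam / a ^ 2 < 2 := by
        rw [Nat.div_lt_iff_lt_mul h1]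
        omega
      omega
    obtain ⟨q, hqd⟩ : ∃ q, q = 5 + 16 * dn2 lam / a ^ 2 := ⟨_, rfl⟩
    have hq6 : q ≤ 6 := by omega
    have hq2 : q ^ 2 ≤ 36 := by nlinarith
    refine drive hE (m := 36 * r) (r := r) hsum (by omega) hqd (by omega) ?_ hr2 hl1 hl0 ?_
      (by omega) (by omega) ?_
    · rw [mul_comm 36]
      exact Nat.mul_le_mul_left _ hq2
    · calc 6 * q ^ 2 * r ≤ 6 * 36 * r := Nat.mul_le_mul_right _ (Nat.mul_le_mul_left _ hq2)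
        _ = 216 * r := by ring
        _ ≤ a := h216.trans haA
    · have h2 : 10 ^ 6 * (36 * r * q ^ 2) ^ 2 * a ≤ 10 ^ 6 * (1296 * r) ^ 2 * a := by
        have h3 : 36 * r * q ^ 2 ≤ 1296 * r := by
          calc 36 * r * q ^ 2 ≤ 36 * r * 36 := Nat.mul_le_mul_left _ hq2
            _ = 1296 * r := by ring
        exact Nat.mul_le_mul_right _ (Nat.mul_le_mul_left _ (Nat.pow_le_pow_left h3 2))
      have h3 : (10 ^ 6 * (1296 * r) ^ 2 + 1) * a = 10 ^ 6 * (1296 * r) ^ 2 * a + a := by ring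
      omega
  · rw [not_le] at hcase
    have ht : 60 * dn2 lam ≤ a * b := by
      have h1 : ∑ i, lam i = lam 0 + ∑ i, tl lam i := by
        rw [Fin.sum_univ_succ]
        rfl
      omega
    have hL1 : 1 ≤ (1 + Real.log (a : ℝ)) ^ c :=
      one_le_pow₀ (by linarith [Real.log_natCast_nonneg a])
    obtain ⟨q, hqd⟩ : ∃ q, q = 5 + 16 * dn2 lam / a ^ 2 := ⟨_, rfl⟩
    have hqR := q_boundE hC1 hL1 ha0 ht hbL hqd
    have hq5 : 5 ≤ q := by rw [hqd]; exact Nat.le_add_right _ _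
    have h1 := hA₂ a (hAA.trans haA)
    have h2 : (q : ℝ) ^ 8 ≤ ((5 + C₁) * (1 + Real.log a) ^ c) ^ 8 := by gcongr
    have h3 : (16 * 10 ^ 6 * r ^ 2 : ℝ) * (q : ℝ) ^ 8 ≤ a := by
      calc (16 * 10 ^ 6 * r ^ 2 : ℝ) * (q : ℝ) ^ 8
          ≤ 16 * 10 ^ 6 * r ^ 2 * ((5 + C₁) * (1 + Real.log a) ^ c) ^ 8 := by gcongr
        _ = 16 * 10 ^ 6 * r ^ 2 * (5 + C₁) ^ 8 * (1 + Real.log a) ^ (8 * c) := by
            rw [mul_pow, ← pow_mul, mul_comm c 8]; ring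
        _ ≤ a := h1
    have hq8 : 16 * 10 ^ 6 * r ^ 2 * q ^ 8 ≤ a := by exact_mod_cast h3
    have hr1 : r ≤ r ^ 2 := by nlinarith
    have hq2 : q ^ 2 ≤ q ^ 8 := Nat.pow_le_pow_right (by omega) (by norm_num)
    have hq1 : q ≤ q ^ 8 := by
      calc q = q ^ 1 := (pow_one q).symm
        _ ≤ q ^ 8 := Nat.pow_le_pow_right (by omega) (by norm_num)
    refine drive hE (m := r * q ^ 2) (r := r) hsum (by omega) hqd ?_ le_rfl hr2 hl1 hl0 ?_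
      ?_ (by omega) ?_
    · calc 8 * q ≤ (2 * 5) * q := Nat.mul_le_mul_right _ (by norm_num)
        _ ≤ (r * q) * q := Nat.mul_le_mul_right _ (Nat.mul_le_mul hr2 hq5)
        _ = r * q ^ 2 := by ring
    · calc 6 * q ^ 2 * r = 6 * (r * q ^ 2) := by ring
        _ ≤ 16 * 10 ^ 6 * (r ^ 2 * q ^ 8) :=
          Nat.mul_le_mul (by norm_num) (Nat.mul_le_mul hr1 hq2)
        _ = 16 * 10 ^ 6 * r ^ 2 * q ^ 8 := by ring
        _ ≤ a := hq8
    · calc 40 * q = 40 * (1 * q) := by ring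
        _ ≤ 16 * 10 ^ 6 * (r ^ 2 * q ^ 8) :=
          Nat.mul_le_mul (by norm_num) (Nat.mul_le_mul (by omega) hq1)
        _ = 16 * 10 ^ 6 * r ^ 2 * q ^ 8 := by ring
        _ ≤ a := hq8
    · have h4 : 16 * (10 ^ 6 * (r * q ^ 2 * q ^ 2) ^ 2 * a) ≤ a ^ 2 := by
        calc 16 * (10 ^ 6 * (r * q ^ 2 * q ^ 2) ^ 2 * a)
            = (16 * 10 ^ 6 * r ^ 2 * q ^ 8) * a := by ring
          _ ≤ a * a := Nat.mul_le_mul_right _ hq8
          _ = a ^ 2 := by ring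
      omega

end Vale.Agent.P181.TL.H976
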