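import Vale.Agent.P181.TL.DefsP
import Vale.Agent.P181.TL.H976.TwoE

set_option autoImplicit false

/-!
# P181, TL+: (T8+) from `CoreP`, the near linear theorem and few boxes below row two
-/

namespace Vale.Agent.P181.TL.H976

open Vale.Agent.P181.H280 (plethMult)
open Vale.Agent.P181.SZ Vale.Agent.P181.TL

theorem sqrt_bound {D s : ℕ} (hD : 1 ≤ D) (hs : 16 * D ^ 2 ≤ s) :
    D * (Nat.sqrt (3 * (s + 3)) + 1) ≤ s := by
  have h1 : Nat.sqrt (3 * (s + 3)) ^ 2 ≤ 3 * (s + 3) := Nat.sqrt_le' _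
  set y := Nat.sqrt (3 * (s + 3)) with hy
  have h2 : (y + 1) ^ 2 ≤ 6 * s + 20 := by nlinarith [sq_nonneg ((y : ℤ) - 1)]
  have h3 : 16 ≤ s := by nlinarith
  have h4 : 16 * (D * (y + 1)) ^ 2 ≤ 16 * s ^ 2 := by
    calc 16 * (D * (y + 1)) ^ 2 = (16 * D ^ 2) * (y + 1) ^ 2 := by ring
      _ ≤ s * (6 * s + 20) := Nat.mul_le_mul hs h2
      _ ≤ 16 * s ^ 2 := by nlinarith
  exact (Nat.pow_le_pow_iff_left (by norm_num : (2 : ℕ) ≠ 0)).1 (by omega)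

theorem sqrt_bound' {E s a q : ℕ} (hs : s + 3 ≤ q * a) (hE : 8 * E ^ 2 * q ≤ a) :
    E * (Nat.sqrt (3 * (s + 3)) + 1) ≤ a := by
  have h1 : Nat.sqrt (3 * (s + 3)) ^ 2 ≤ 3 * (s + 3) := Nat.sqrt_le' _
  set y := Nat.sqrt (3 * (s + 3)) with hy
  have h2 : (y + 1) ^ 2 ≤ 8 * (s + 3) := by nlinarith [sq_nonneg ((y : ℤ) - 1)]
  have h4 : (E * (y + 1)) ^ 2 ≤ a ^ 2 := by
    calc (E * (y + 1)) ^ 2 = E ^ 2 * (y + 1) ^ 2 := by ring
      _ ≤ E ^ 2 * (8 * (s + 3)) := Nat.mul_le_mul_left _ h2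
      _ ≤ E ^ 2 * (8 * (q * a)) := Nat.mul_le_mul_left _ (Nat.mul_le_mul_left _ hs)
      _ = (8 * E ^ 2 * q) * a := by ring
      _ ≤ a * a := Nat.mul_le_mul_right _ hE
      _ = a ^ 2 := by ring
  exact (Nat.pow_le_pow_iff_left (by norm_num : (2 : ℕ) ≠ 0)).1 h4

/-- `CoreP` with simpler hypotheses. -/
theorem driveA (hC : CoreP) {a b k q m r : ℕ} {lam : Fin (k + 3) → ℕ}
    (hsum : ∑ i, lam i = a * b) (ha : 1 ≤ a) (hqd : q = 5 + 16 * dn2 lam / a ^ 2)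
    (hm8 : 8 * q ≤ m) (hmr : r * q ^ 2 ≤ m) (hr : 4 ≤ r)
    (hbig : 12 * (r * (2 * m * q ^ 2)) ^ 2 * q ≤ a)
    (hs : 16 * (2 * m * q ^ 2) ^ 2 ≤ dn2 lam / a)
    (hlam1 : r * lam 2 + 4 * a ^ 2 ≤ r * lam 1)
    (hlam0 : lam 1 + 60 * dn2 lam + 17 * a ^ 2 ≤ lam 0) (hbt : b ≤ dn2 lam + a) :
    plethMult a b (k + 3) lam ≤ plethMult b a (k + 3) lam := by
  have hq5 : 5 ≤ q := by rw [hqd]; exact Nat.le_add_right _ _
  have hm1 : 1 ≤ m := by omega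
  obtain ⟨D, hD⟩ : ∃ D, D = 2 * m * q ^ 2 := ⟨_, rfl⟩
  rw [← hD] at hbig hs
  have hqq : q ≤ q ^ 2 := by nlinarith
  have hDm : 2 * q ^ 2 ≤ D := by
    rw [hD]
    exact Nat.mul_le_mul_right _ (by omega)
  have hD1 : 1 ≤ D := by omega
  have hrD : r * D ≤ (r * D) ^ 2 := by
    have : 1 ≤ r * D := Nat.mul_pos (by omega) hD1
    nlinarith
  have hbig1 : 12 * (r * D) * q ≤ a :=
    le_trans (Nat.mul_le_mul_right _ (Nat.mul_le_mul_left _ hrD)) hbig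
  have hbig2 : 12 * (r * D) ≤ a := by
    refine le_trans ?_ hbig1
    exact Nat.le_mul_of_pos_right _ (by omega)
  have hrD' : r * (2 * q ^ 2) ≤ r * D := Nat.mul_le_mul_left _ hDm
  have h4D : 4 * D ≤ r * D := Nat.mul_le_mul_right _ hr
  have hrr : r * 1 ≤ r * D := Nat.mul_le_mul_left _ hD1
  have h40 : 40 * q ≤ a := by omega
  have ha0 : 0 < a := ha
  obtain ⟨s, hsd⟩ : ∃ s, s = dn2 lam / a := ⟨_, rfl⟩
  rw [← hsd] at hs
  have hsa : s * a ≤ dn2 lam := by rw [hsd]; exact Nat.div_mul_le_self _ _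
  have hsa' : dn2 lam < (s + 1) * a := by
    rw [hsd, mul_comm]
    exact Nat.lt_mul_div_succ _ ha0
  have hsq : s + 3 ≤ q * a := by
    have h1 : 16 * dn2 lam < a ^ 2 * (16 * dn2 lam / a ^ 2 + 1) :=
      Nat.lt_mul_div_succ _ (by positivity)
    have h2 : 16 * dn2 lam / a ^ 2 + 1 ≤ q := by omega
    have h3 : a ^ 2 * (16 * dn2 lam / a ^ 2 + 1) ≤ a ^ 2 * q := Nat.mul_le_mul_left _ h2
    have h4 : a * (16 * s) < a * (a * q) := by
      calc a * (16 * s) = 16 * (s * a) := by ring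
        _ ≤ 16 * dn2 lam := Nat.mul_le_mul_left _ hsa
        _ < a ^ 2 * (16 * dn2 lam / a ^ 2 + 1) := h1
        _ ≤ a ^ 2 * q := h3
        _ = a * (a * q) := by ring
    have h5 : 16 * s < a * q := Nat.lt_of_mul_lt_mul_left h4
    have h6 : a * 5 ≤ a * q := Nat.mul_le_mul_left _ hq5
    have h7 : q * a = a * q := mul_comm _ _
    omega
  have hX1 := sqrt_bound hD1 hs
  have hX2 := sqrt_bound' (E := r * D) hsq (by
    refine le_trans ?_ hbig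
    exact Nat.mul_le_mul_right _ (Nat.mul_le_mul_right _ (by norm_num)))
  have hX3 : 3 * (s + 3) ≤ (Nat.sqrt (3 * (s + 3)) + 1) ^ 2 := (Nat.lt_succ_sqrt' _).le
  obtain ⟨X, hXd⟩ : ∃ X, X = Nat.sqrt (3 * (s + 3)) + 1 := ⟨_, rfl⟩
  rw [← hXd] at hX1 hX2 hX3
  have hXp : 1 ≤ X := by omega
  obtain ⟨E, hE⟩ : ∃ E, E = 2 * q ^ 2 * a + 2 * m * q ^ 2 * X * a + q ^ 2 * a * (a / m) + 2 * a :=
    ⟨_, rfl⟩
  have hE1 : r * (2 * q ^ 2 * a) ≤ a ^ 2 := by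
    calc r * (2 * q ^ 2 * a) = r * (2 * q ^ 2) * a := by ring
      _ ≤ a * a := Nat.mul_le_mul_right _ (by omega)
      _ = a ^ 2 := by ring
  have hE2 : r * (2 * m * q ^ 2 * X * a) ≤ a ^ 2 := by
    calc r * (2 * m * q ^ 2 * X * a) = r * D * X * a := by rw [hD]; ring
      _ ≤ a * a := Nat.mul_le_mul_right _ hX2
      _ = a ^ 2 := by ring
  have hE3 : r * (q ^ 2 * a * (a / m)) ≤ a ^ 2 := by
    calc r * (q ^ 2 * a * (a / m)) = r * q ^ 2 * (a / m) * a := by ring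
      _ ≤ m * (a / m) * a :=
        Nat.mul_le_mul_right _ (Nat.mul_le_mul_right _ hmr)
      _ ≤ a * a := Nat.mul_le_mul_right _ (Nat.mul_div_le a m)
      _ = a ^ 2 := by ring
  have hE4 : r * (2 * a) ≤ a ^ 2 := by
    calc r * (2 * a) = (2 * r) * a := by ring
      _ ≤ a * a := Nat.mul_le_mul_right _ (by omega)
      _ = a ^ 2 := by ring
  have hEr : r * E ≤ 4 * a ^ 2 := by
    rw [hE, mul_add, mul_add, mul_add]
    omega
  have hE5 : E ≤ a ^ 2 := by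
    have h1 : 4 * E ≤ r * E := Nat.mul_le_mul_right _ hr
    omega
  have hq3 : 3 * q * a ^ 2 ≤ 15 * a ^ 2 + 48 * dn2 lam := by
    have h1 : 16 * dn2 lam / a ^ 2 * a ^ 2 ≤ 16 * dn2 lam := Nat.div_mul_le_self _ _
    have h2 : 3 * q * a ^ 2 = 15 * a ^ 2 + 3 * (16 * dn2 lam / a ^ 2 * a ^ 2) := by
      rw [hqd]; ring
    omega
  have h5 : 5 * a ≤ a ^ 2 := by
    rw [pow_two]
    exact Nat.mul_le_mul_right _ (by omega)
  have hl2 : lam 2 ≤ dn2 lam :=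
    Finset.single_le_sum (f := fun i : Fin (k + 1) => lam i.succ.succ) (fun _ _ => Nat.zero_le _)
      (Finset.mem_univ 0)
  refine hC a b k q m X (lam 2 + E) lam hsum (by omega) hqd hm8 h40 hXp ?_ ?_ ?_ ?_ ?_
  · rw [Nat.le_div_iff_mul_le (by omega), ← hsd]
    calc 2 * m * q * X * q = 2 * m * q ^ 2 * X := by ring
      _ = D * X := by rw [hD]
      _ ≤ s := hX1
  · have h1 : a + b ≤ (s + 3) * a := by
      have : (s + 3) * a = (s + 1) * a + 2 * a := by ring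
      omega
    have h2 : a + dn2 lam ≤ (s + 3) * a := by
      have : (s + 3) * a = (s + 1) * a + 2 * a := by ring
      omega
    calc 9 * (a + b) * (a + dn2 lam) ≤ 9 * ((s + 3) * a) * ((s + 3) * a) := by gcongr
      _ = a ^ 2 * (3 * (s + 3)) ^ 2 := by ring
      _ ≤ a ^ 2 * (X ^ 2) ^ 2 := by gcongr
      _ = a ^ 2 * X ^ 4 := by ring
  · rw [hE]; ring
  · have h1 : r * (lam 2 + E) ≤ r * lam 1 := by
      rw [mul_add]
      omega
    exact Nat.le_of_mul_le_mul_left h1 (by omega)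
  · omega

/-- **(T8+)**. -/
theorem twoLongA (hC : CoreP) (hP : NearLin) (hF : FewTwo) : TwoLongA := by
  intro θ hθ
  obtain ⟨C₀, c, hC₀⟩ := hP
  obtain ⟨C₁, hC₁⟩ : ∃ x : ℝ, x = max C₀ 1 := ⟨_, rfl⟩
  have hC1 : 1 ≤ C₁ := hC₁ ▸ le_max_right _ _
  have hP' : ∀ a b : ℕ, C₁ * a * (1 + Real.log a) ^ c ≤ b →
      ∀ (n : ℕ) (lam : Fin n → ℕ), plethMult a b n lam ≤ plethMult b a n lam := by
    intro a b hab
    refine hC₀ a b (le_trans ?_ hab)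
    have h0 : 0 ≤ (1 + Real.log (a : ℝ)) ^ c :=
      pow_nonneg (by linarith [Real.log_natCast_nonneg a]) c
    have h1 : C₀ ≤ C₁ := hC₁ ▸ le_max_left _ _
    gcongr
  obtain ⟨r, hr4, hrθ⟩ : ∃ r : ℕ, 4 ≤ r ∧ 4 ≤ r * θ := by
    refine ⟨max 4 ⌈4 / θ⌉₊, le_max_left _ _, ?_⟩
    have h1 : 4 / θ ≤ (max 4 ⌈4 / θ⌉₊ : ℕ) :=
      (Nat.le_ceil _).trans (by exact_mod_cast le_max_right 4 ⌈4 / θ⌉₊)
    rwa [div_le_iff₀ hθ] at h1
  obtain ⟨A₂, hA₂⟩ := exists_polylog_le (1024 * r ^ 4 * (5 + C₁) ^ 9) (9 * c)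
  obtain ⟨A₁, h216, hAA⟩ : ∃ A₁ : ℕ, 12 * (r * (2592 * r)) ^ 2 * 6 ≤ A₁ ∧ A₂ ≤ A₁ :=
    ⟨max (12 * (r * (2592 * r)) ^ 2 * 6) A₂, le_max_left _ _, le_max_right _ _⟩
  refine ⟨max (C₁ * (1 + Real.log A₁) ^ c) (16 * (2592 * r) ^ 2 + 1),
    lt_of_lt_of_le (by positivity : (0 : ℝ) < 16 * (2592 * r) ^ 2 + 1) (le_max_right _ _), ?_⟩
  intro a b k lam hlam hsum hab hθa hl0
  have hb1 : C₁ * (1 + Real.log A₁) ^ c * a ≤ b :=
    (mul_le_mul_of_nonneg_right (le_max_left _ _) (by positivity)).trans hab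
  have hb3 : (16 * (2592 * r) ^ 2 + 1 : ℝ) * a ≤ b :=
    (mul_le_mul_of_nonneg_right (le_max_right _ _) (by positivity)).trans hab
  rcases lt_or_ge a A₁ with haA | haA
  · -- small `a`
    apply hP' a b _ _ lam
    refine le_trans ?_ hb1
    have : (1 + Real.log (a : ℝ)) ^ c ≤ (1 + Real.log (A₁ : ℝ)) ^ c := by
      rcases Nat.eq_zero_or_pos a with h0 | h0
      · subst h0
        simp only [Nat.cast_zero, Real.log_zero, add_zero, one_pow]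
        exact one_le_pow₀ (by linarith [Real.log_natCast_nonneg A₁])
      · apply pow_le_pow_left₀ (by linarith [Real.log_natCast_nonneg a])
        have : Real.log (a : ℝ) ≤ Real.log (A₁ : ℝ) :=
          Real.log_le_log (by exact_mod_cast h0) (by exact_mod_cast haA.le)
        linarith
    calc C₁ * a * (1 + Real.log a) ^ c ≤ C₁ * a * (1 + Real.log A₁) ^ c := by gcongr
      _ = C₁ * (1 + Real.log A₁) ^ c * a := by ring
  by_cases hbL : C₁ * a * (1 + Real.log a) ^ c ≤ b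
  · exact hP' a b hbL _ lam
  rw [not_le] at hbL
  have hA1 : 2 ≤ A₁ := by
    refine le_trans ?_ h216
    have h1 : 1 ≤ (r * (2592 * r)) ^ 2 := by
      have : 0 < r * (2592 * r) := by positivity
      exact Nat.one_le_pow _ _ this
    omega
  by_cases hfew : dn2 lam + a ≤ b + 1
  · exact hF a b (k + 1) lam (by omega) hfew
  rw [not_le] at hfew
  have ha0 : 0 < a := by omega
  have hb3N : (16 * (2592 * r) ^ 2 + 1) * a ≤ b := by exact_mod_cast hb3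
  have hl1 : r * lam 2 + 4 * a ^ 2 ≤ r * lam 1 := by
    have h1 : (r : ℝ) * lam 2 + 4 * (a : ℝ) ^ 2 ≤ r * lam 1 := by
      calc (r : ℝ) * lam 2 + 4 * (a : ℝ) ^ 2
          ≤ (r : ℝ) * lam 2 + r * θ * (a : ℝ) ^ 2 := by gcongr
        _ = r * ((lam 2 : ℝ) + θ * (a : ℝ) ^ 2) := by ring
        _ ≤ r * lam 1 := by gcongr
    exact_mod_cast h1
  by_cases hcase : 16 * dn2 lam ≤ a ^ 2
  · have hq : 16 * dn2 lam / a ^ 2 ≤ 1 := by
      have h1 : 0 < a ^ 2 := by positivity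
      have : 16 * dn2 lam / a ^ 2 < 2 := by
        rw [Nat.div_lt_iff_lt_mul h1]
        omega
      omega
    obtain ⟨q, hqd⟩ : ∃ q, q = 5 + 16 * dn2 lam / a ^ 2 := ⟨_, rfl⟩
    have hq6 : q ≤ 6 := by omega
    have hq2 : q ^ 2 ≤ 36 := by nlinarith
    have hD : 2 * (36 * r) * q ^ 2 ≤ 2592 * r := by
      calc 2 * (36 * r) * q ^ 2 ≤ 2 * (36 * r) * 36 := Nat.mul_le_mul_left _ hq2
        _ = 2592 * r := by ring
    refine driveA hC (m := 36 * r) (r := r) hsum (by omega) hqd (by omega) ?_ hr4 ?_ ?_ hl1 hl0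
      (by omega)
    · rw [mul_comm 36]
      exact Nat.mul_le_mul_left _ hq2
    · refine le_trans ?_ (h216.trans haA)
      exact Nat.mul_le_mul (Nat.mul_le_mul_left _ (Nat.pow_le_pow_left
        (Nat.mul_le_mul_left _ hD) 2)) hq6
    · rw [Nat.le_div_iff_mul_le ha0]
      have h2 : 16 * (2 * (36 * r) * q ^ 2) ^ 2 * a ≤ 16 * (2592 * r) ^ 2 * a :=
        Nat.mul_le_mul_right _ (Nat.mul_le_mul_left _ (Nat.pow_le_pow_left hD 2))
      have h3 : (16 * (2592 * r) ^ 2 + 1) * a = 16 * (2592 * r) ^ 2 * a + a := by ring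
      omega
  · rw [not_le] at hcase
    have ht : 60 * dn2 lam ≤ a * b := by
      have h1 : ∑ i, lam i = lam 0 + ∑ i, tl lam i := by
        rw [Fin.sum_univ_succ]
        rfl
      omega
    have hL1 : 1 ≤ (1 + Real.log (a : ℝ)) ^ c :=
      one_le_pow₀ (by linarith [Real.log_natCast_nonneg a])
    obtain ⟨q, hqd⟩ : ∃ q, q = 5 + 16 * dn2 lam / a ^ 2 := ⟨_, rfl⟩
    have hqR := q_boundE hC1 hL1 ha0 ht hbL hqd
    have hq5 : 5 ≤ q := by rw [hqd]; exact Nat.le_add_right _ _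
    have h1 := hA₂ a (hAA.trans haA)
    have h2 : (q : ℝ) ^ 9 ≤ ((5 + C₁) * (1 + Real.log a) ^ c) ^ 9 := by gcongr
    have h3 : (1024 * r ^ 4 : ℝ) * (q : ℝ) ^ 9 ≤ a := by
      calc (1024 * r ^ 4 : ℝ) * (q : ℝ) ^ 9
          ≤ 1024 * r ^ 4 * ((5 + C₁) * (1 + Real.log a) ^ c) ^ 9 := by gcongr
        _ = 1024 * r ^ 4 * (5 + C₁) ^ 9 * (1 + Real.log a) ^ (9 * c) := by
            rw [mul_pow, ← pow_mul, mul_comm c 9]; ring
        _ ≤ a := h1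
    have hq9 : 1024 * r ^ 4 * q ^ 9 ≤ a := by exact_mod_cast h3
    refine driveA hC (m := r * q ^ 2) (r := r) hsum (by omega) hqd ?_ le_rfl hr4 ?_ ?_ hl1 hl0
      (by omega)
    · calc 8 * q ≤ (4 * 5) * q := Nat.mul_le_mul_right _ (by norm_num)
        _ ≤ (r * q) * q := Nat.mul_le_mul_right _ (Nat.mul_le_mul hr4 hq5)
        _ = r * q ^ 2 := by ring
    · calc 12 * (r * (2 * (r * q ^ 2) * q ^ 2)) ^ 2 * q = 48 * (r ^ 4 * q ^ 9) := by ring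
        _ ≤ 1024 * (r ^ 4 * q ^ 9) := Nat.mul_le_mul_right _ (by norm_num)
        _ = 1024 * r ^ 4 * q ^ 9 := by ring
        _ ≤ a := hq9
    · rw [Nat.le_div_iff_mul_le ha0]
      have h8 : 1024 * r ^ 2 * q ^ 8 ≤ a := by
        refine le_trans ?_ hq9
        have h5 : r ^ 2 ≤ r ^ 4 := Nat.pow_le_pow_right (by omega) (by norm_num)
        have h6 : q ^ 8 ≤ q ^ 9 := Nat.pow_le_pow_right (by omega) (by norm_num)
        exact Nat.mul_le_mul (Nat.mul_le_mul_left _ h5) h6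
      have h4 : 16 * (16 * (2 * (r * q ^ 2) * q ^ 2) ^ 2 * a) ≤ a ^ 2 := by
        calc 16 * (16 * (2 * (r * q ^ 2) * q ^ 2) ^ 2 * a)
            = (1024 * r ^ 2 * q ^ 8) * a := by ring
          _ ≤ a * a := Nat.mul_le_mul_right _ h8
          _ = a ^ 2 := by ring
      omega

end Vale.Agent.P181.TL.H976
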