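import Vale.Agent.P181.TL.H976.TwoE
import Vale.Agent.P181.PLX.Main
import Vale.Agent.P181.H536.HW

set_option autoImplicit false

/-!
# P181, TL: the two theorems used in (T8), (T9)
-/

namespace Vale.Agent.P181.TL.H976

open Vale.Agent.P181.H280 (plethMult)
open Vale.Agent.P181.SZ Vale.Agent.P181.TL

theorem nearLin : NearLin := by
  obtain ⟨C, c, h⟩ := PLX.poly_result.{0}
  exact ⟨C, c, fun a b hab => (h a b hab).2⟩

theorem fewTwo : FewTwo := fun a b k lam ha h => by
  unfold dn2 at h
  exact H536.plethMult_le (N := a - 1) (by omega) (by omega) lam (by omega)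

/-- **(T8)** from `CoreW`. -/
theorem twoLong_of_coreW (hW : CoreW) : TwoLong := twoLong hW nearLin fewTwo

/-- **(T8E)** from `CoreE`. -/
theorem twoLongE_of_coreE (hE : CoreE) : TwoLongE := twoLongE hE nearLin fewTwo

end Vale.Agent.P181.TL.H976
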